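import Vale.Agent.P286ER2.G0
import Vale.Agent.P286EA2.Rd
import Vale.Agent.P286EC.Gen

/-!
The transfer module of a test object.
-/

set_option autoImplicit false
set_option linter.all false

namespace Vale.Agent.P286EX.Tr

open CategoryTheory MvPolynomial Matrix TensorProduct Vale.Agent.P286 Vale.Agent.P286.St
  Vale.Agent.P286E Vale.Agent.P286EI Vale.Agent.P286EU

noncomputable section

section Gen

variable {κ R A R' A' R'' A'' : Type} [CommRing R] [Algebra ℂ R] [CommRing A] [Algebra ℂ A]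
  [CommRing R'] [Algebra ℂ R'] [CommRing A'] [Algebra ℂ A'] [CommRing R''] [Algebra ℂ R'']
  [CommRing A''] [Algebra ℂ A'']
  {δ : κ → Derivation ℂ R R} {δ' : κ → Derivation ℂ R' R'} {δ'' : κ → Derivation ℂ R'' R''}

theorem map_pm (m : DO δ →ₐ[ℂ] DO δ') (hm : ∀ k, m (DO.D δ k) = DO.D δ' k) (α : κ →₀ ℕ) :
    m (pm δ α) = pm δ' α := by
  induction α using fs_ind with
  | h0 => rw [pm_zero, pm_zero, map_one]
  | h1 α k ih => rw [pm_add, pm_add, map_mul, ih, hm]

theorem tt_map (h' : DO.Cm δ') (ψ' : R' →ₐ[ℂ] A') (φ : A →ₐ[ℂ] A') (m : DO δ →ₐ[ℂ] DO δ')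
    (hm : ∀ k, m (DO.D δ k) = DO.D δ' k) (p : MvPolynomial κ A) :
    tt h' ψ' φ m p = map (φ : A →+* A') p := by
  induction p using MvPolynomial.induction_on' with
  | monomial α a =>
    rw [tt_mon, map_pm m hm, ev_pm, map_monomial, smul_monomial, smul_eq_mul, mul_one]
    rfl
  | add p q hp hq => rw [map_add, map_add, hp, hq]

theorem tt_tt (h' : DO.Cm δ') (h'' : DO.Cm δ'') {ψ' : R' →ₐ[ℂ] A'} {ψ'' : R'' →ₐ[ℂ] A''}
    (φ : A →ₐ[ℂ] A') {φ' : A' →ₐ[ℂ] A''} (m : DO δ →ₐ[ℂ] DO δ') {m' : DO δ' →ₐ[ℂ] DO δ''}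
    (H : Cp ψ' ψ'' φ' m') (p : MvPolynomial κ A) :
    tt h'' ψ'' φ' m' (tt h' ψ' φ m p) = tt h'' ψ'' (φ'.comp φ) (m'.comp m) p := by
  induction p using MvPolynomial.induction_on' with
  | monomial α a => rw [tt_mon, tt_mon, tt_smul, tt_ev h' h'' H]; rfl
  | add p q hp hq => simp only [map_add, hp, hq]

end Gen

variable {I : Type} [SmallCategory I] {D : CD I} {G : Grp} {s : ℂ}

/-- The transfer module. -/
abbrev TX (G : Grp) (s : ℂ) (X : QO D) : Type := MvPolynomial (Option (Fin 3)) (RQ G s X)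

/-- The differential operators of the chart. -/
abbrev DV (xd : XD D) (i : I) : Type := DW (Fin 3) (xd.pd i)

/-- The functions on the product of the test object with the curve. -/
abbrev BX (G : Grp) (s : ℂ) (X : QO D) : Type := RQ G s X ⊗[ℂ] D.C X.i

/-- The first inclusion. -/
abbrev bL (G : Grp) (s : ℂ) (X : QO D) : RQ G s X →ₐ[ℂ] BX G s X :=
  Algebra.TensorProduct.includeLeft

/-- The second inclusion. -/
abbrev bR (G : Grp) (s : ℂ) (X : QO D) : D.C X.i →ₐ[ℂ] BX G s X :=
  Algebra.TensorProduct.includeRight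

variable (xd : XD D)

/-- The vector field of the curve. -/
def pdX (G : Grp) (s : ℂ) (X : QO D) : Derivation ℂ (BX G s X) (BX G s X) := P286EC.lT _ (xd.pd X.i)

theorem pdX_tmul (X : QO D) (a : RQ G s X) (z : D.C X.i) :
    pdX xd G s X (a ⊗ₜ z) = a ⊗ₜ xd.pd X.i z := rfl

theorem pdX_R (X : QO D) (z : D.C X.i) : pdX xd G s X (bR G s X z) = bR G s X (xd.pd X.i z) := rfl

theorem pdX_L (X : QO D) (a : RQ G s X) : pdX xd G s X (bL G s X a) = 0 :=
  (pdX_tmul xd X a 1).trans (by rw [Derivation.map_one_eq_zero, tmul_zero])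

/-- The differential operators with coefficients in the test object. -/
abbrev DWX (G : Grp) (s : ℂ) (X : QO D) : Type := DW (Fin 3) (pdX xd G s X)

/-- The multiplication. -/
def mX (G : Grp) (s : ℂ) (X : QO D) : BX G s X →ₐ[ℂ] RQ G s X :=
  Algebra.TensorProduct.lift (AlgHom.id ℂ _) (qx G s X) fun _ _ => Commute.all _ _

theorem mX_tmul (X : QO D) (a : RQ G s X) (z : D.C X.i) :
    mX G s X (a ⊗ₜ z) = a * qx G s X z := Algebra.TensorProduct.lift_tmul _ _ _ a z

theorem mX_L (X : QO D) (a : RQ G s X) : mX G s X (bL G s X a) = a :=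
  (mX_tmul X a 1).trans (by rw [map_one, mul_one])

theorem mX_R (X : QO D) (z : D.C X.i) : mX G s X (bR G s X z) = qx G s X z :=
  (mX_tmul X 1 z).trans (one_mul _)

/-- The point, with coefficients. -/
def pX (G : Grp) (s : ℂ) (X : QO D) : MvPolynomial (Fin 3) (BX G s X) →ₐ[ℂ] RQ G s X :=
  aevalTower (mX G s X) (qY G s X)

theorem pX_C (X : QO D) (b : BX G s X) : pX G s X (C b) = mX G s X b := aevalTower_C _ _ b

theorem pX_X (X : QO D) (a : Fin 3) : pX G s X (MvPolynomial.X a) = qY G s X a :=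
  aevalTower_X _ _ a

/-- The point. -/
def p0 (G : Grp) (s : ℂ) (X : QO D) : OV D X.i →ₐ[ℂ] RQ G s X := vlift (qx G s X) (qY G s X)

theorem p0_C (X : QO D) (z : D.C X.i) : p0 G s X (C z) = qx G s X z := vlift_C _ _ z

theorem p0_X (X : QO D) (a : Fin 3) : p0 G s X (MvPolynomial.X a) = qY G s X a := vlift_X _ _ a

theorem p0_FF (X : QO D) : p0 G s X (FF D X.i) = 0 :=
  (vlift_FF _ _).trans (sub_eq_zero.2 X.sq)

/-- The symbol of an operator with coefficients. -/
def evX (G : Grp) (s : ℂ) (X : QO D) : DWX xd G s X →ₗ[ℂ] TX G s X := ev (wd_cm _) (pX G s X)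

/-- The right action of the operators with coefficients. -/
def raX (G : Grp) (s : ℂ) (X : QO D) : DWX xd G s X →ₗ[ℂ] TX G s X →ₗ[RQ G s X] TX G s X :=
  ra (wd_cm _) (pX G s X)

/-- The symbol. -/
def ev0 (G : Grp) (s : ℂ) (X : QO D) : DV xd X.i →ₗ[ℂ] TX G s X := ev (wd_cm _) (p0 G s X)

/-- The right action. -/
def ra0 (G : Grp) (s : ℂ) (X : QO D) : DV xd X.i →ₗ[ℂ] TX G s X →ₗ[RQ G s X] TX G s X :=
  ra (wd_cm _) (p0 G s X)

/-- The extension of the coefficients. -/
def incT (G : Grp) (s : ℂ) (X : QO D) : DW.Tr (Fin 3) (xd.pd X.i) (pdX xd G s X) where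
  κ := bR G s X
  c := 1
  g := 1
  l := 0
  hκ z := (one_mul _).symm
  og := by rw [transpose_one, Matrix.one_mul]
  pg a b := by
    rw [Matrix.one_apply]
    split_ifs
    exacts [Derivation.map_one_eq_zero _, map_zero _]

/-- The extension of the coefficients. -/
def inc (G : Grp) (s : ℂ) (X : QO D) : DV xd X.i →ₐ[ℂ] DWX xd G s X := DW.map (incT xd G s X)

theorem inc_cf (X : QO D) (z : D.C X.i) :
    inc xd G s X (DW.cf _ _ z) = DW.cf _ _ (bR G s X z) := DW.map_cf _ z

theorem inc_y (X : QO D) (a : Fin 3) : inc xd G s X (DW.y _ a) = DW.y _ a :=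
  (DW.map_y _ a).trans (by simp only [incT, DW.lc_one, Units.val_one, map_one, one_mul])

theorem inc_d (X : QO D) (a : Fin 3) : inc xd G s X (DW.d _ a) = DW.d _ a :=
  (DW.map_d _ a).trans (by simp only [incT, DW.lc_one, inv_one, Units.val_one, map_one, one_mul])

theorem inc_du (X : QO D) : inc xd G s X (DW.du _ _) = DW.du _ _ :=
  (DW.map_du _).trans (by simp [incT, DW.tu, DW.lg])

theorem inc_D (X : QO D) (k : Option (Fin 3)) : inc xd G s X (DO.D _ k) = DO.D _ k := by
  rcases k with _ | k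
  exacts [inc_du xd X, inc_d xd X k]

theorem inc_Eu (X : QO D) : inc xd G s X (DW.Eu _ _) = DW.Eu _ _ := DW.map_Eu _

theorem cp_inc (X : QO D) : Cp (p0 G s X) (pX G s X) (AlgHom.id ℂ _) (inc xd G s X) :=
  Cp.of_gen (fun z => ⟨C (bR G s X z), inc_cf xd X z, by rw [pX_C, mX_R, p0_C]; rfl⟩)
    fun a => ⟨MvPolynomial.X a, inc_y xd X a, by rw [pX_X, p0_X]; rfl⟩

theorem tt_inc (X : QO D) (p : TX G s X) :
    tt (wd_cm _) (pX G s X) (AlgHom.id ℂ _) (inc xd G s X) p = p :=
  (tt_map _ _ _ _ (inc_D xd X) p).trans (map_id p)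

theorem evX_inc (X : QO D) (q : DV xd X.i) : evX xd G s X (inc xd G s X q) = ev0 xd G s X q :=
  (tt_ev _ _ (cp_inc xd X) q).symm.trans (tt_inc xd X _)

theorem raX_inc (X : QO D) (q : DV xd X.i) (p : TX G s X) :
    raX xd G s X (inc xd G s X q) p = ra0 xd G s X q p := by
  have h := tt_ra (wd_cm _) (wd_cm _) (cp_inc xd X) q p
  rw [tt_inc, tt_inc] at h
  exact h.symm

theorem raX_mul (X : QO D) (a b : DWX xd G s X) (p : TX G s X) :
    raX xd G s X (a * b) p = raX xd G s X b (raX xd G s X a p) := ra_mul _ _ a b p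

theorem raX_one (X : QO D) (p : TX G s X) : raX xd G s X 1 p = p := ra_one _ _ p

theorem raX_ev (X : QO D) (q p : DWX xd G s X) :
    raX xd G s X q (evX xd G s X p) = evX xd G s X (p * q) := ra_ev _ _ q p

theorem ra0_mul (X : QO D) (a b : DV xd X.i) (p : TX G s X) :
    ra0 xd G s X (a * b) p = ra0 xd G s X b (ra0 xd G s X a p) := ra_mul _ _ a b p

theorem ra0_one (X : QO D) (p : TX G s X) : ra0 xd G s X 1 p = p := ra_one _ _ p

theorem ra0_ev (X : QO D) (q p : DV xd X.i) :
    ra0 xd G s X q (ev0 xd G s X p) = ev0 xd G s X (p * q) := ra_ev _ _ q p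

theorem ra0_unit (X : QO D) (q : DV xd X.i) : ra0 xd G s X q 1 = ev0 xd G s X q := ra_one' _ _ q

theorem raX_unit (X : QO D) (q : DWX xd G s X) : raX xd G s X q 1 = evX xd G s X q :=
  ra_one' _ _ q

theorem raX_L (X : QO D) (a : RQ G s X) (p : TX G s X) :
    raX xd G s X (DW.cf _ _ (bL G s X a)) p = a • p :=
  (ra_const (wd_cm _) (pX G s X) (f := C (bL G s X a)) (by
    rintro (_ | k)
    · rw [wd_n_C, pdX_L, map_zero]
    · exact wd_s_C _ _ _) p).trans (by rw [pX_C, mX_L])

/-! ### The connection -/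

/-- The component of a vector field along the curve. -/
def c0 (G : Grp) (s : ℂ) (X : QO D) (v : Derivation ℂ (RQ G s X) (RQ G s X)) : RQ G s X :=
  letI := (qx G s X).toRingHom.toAlgebra
  haveI : IsScalarTower ℂ (D.C X.i) (RQ G s X) :=
    IsScalarTower.of_algebraMap_eq fun c => ((qx G s X).commutes c).symm
  (v.compAlgebraMap (D.C X.i)).liftKaehlerDifferential (xd.om X.i)

theorem c0_eq (X : QO D) (v : Derivation ℂ (RQ G s X) (RQ G s X)) (z : D.C X.i) :
    v (qx G s X z) = c0 xd G s X v * qx G s X (xd.pd X.i z) := by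
  letI := (qx G s X).toRingHom.toAlgebra
  haveI : IsScalarTower ℂ (D.C X.i) (RQ G s X) :=
    IsScalarTower.of_algebraMap_eq fun c => ((qx G s X).commutes c).symm
  have h := (v.compAlgebraMap (D.C X.i)).liftKaehlerDifferential_comp_D z
  rw [xd.d_eq, map_smul] at h
  exact h.symm.trans (mul_comm _ _)

theorem pd_cancel {i : I} {A : Type} [CommRing A] [Algebra ℂ A] (x : D.C i →ₐ[ℂ] A) {a b : A}
    (h : ∀ z, a * x (xd.pd i z) = b * x (xd.pd i z)) : a = b := by
  have e : ∀ w : Ω[D.C i⁄ℂ], a * x ((xd.pd i).liftKaehlerDifferential w) =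
      b * x ((xd.pd i).liftKaehlerDifferential w) := fun w => by
    have hw : w ∈ Submodule.span (D.C i) (Set.range (KaehlerDifferential.D ℂ (D.C i))) := by
      rw [KaehlerDifferential.span_range_derivation]; trivial
    induction hw using Submodule.span_induction with
    | mem w hw =>
      obtain ⟨z, rfl⟩ := hw
      rw [Derivation.liftKaehlerDifferential_comp_D]; exact h z
    | zero => simp
    | add w w' _ _ h1 h2 => simp only [map_add, mul_add, h1, h2]
    | smul z w _ h1 =>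
      simp only [map_smul, smul_eq_mul, map_mul]
      rw [mul_left_comm, h1, mul_left_comm]
  have := e (xd.om i)
  rwa [xd.pd_om, map_one, mul_one, mul_one] at this

theorem c0_of (X : QO D) (v : Derivation ℂ (RQ G s X) (RQ G s X)) {c : RQ G s X}
    (h : ∀ z, v (qx G s X z) = c * qx G s X (xd.pd X.i z)) : c0 xd G s X v = c :=
  pd_cancel xd (qx G s X) fun z => (c0_eq xd X v z).symm.trans (h z)

/-- The components of a vector field. -/
def cv (G : Grp) (s : ℂ) (X : QO D) (v : Derivation ℂ (RQ G s X) (RQ G s X))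
    (k : Option (Fin 3)) : RQ G s X := k.elim (c0 xd G s X v) fun a => v (qY G s X a)

theorem co_cv (X : QO D) (v : Derivation ℂ (RQ G s X) (RQ G s X)) :
    Co (wd (Fin 3) (xd.pd X.i)) (p0 G s X) v (cv xd G s X v) := fun f => by
  induction f using MvPolynomial.induction_on with
  | C z => simp [Fintype.sum_option, cv, wd_n_C, wd_s_C, p0_C, c0_eq xd X v z]
  | add p q hp hq => simp only [map_add, hp, hq, mul_add, Finset.sum_add_distrib]
  | mul_X p a hp =>
    have e : ∑ k, cv xd G s X v k * p0 G s X (wd (Fin 3) (xd.pd X.i) k (MvPolynomial.X a)) =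
        v (qY G s X a) := by
      simp [Fintype.sum_option, cv, wd_n_X, wd_s_X, apply_ite (p0 G s X)]
    simp only [map_mul, Derivation.leibniz, smul_eq_mul, map_add, mul_add, Finset.sum_add_distrib,
      hp, p0_X, ← e, Finset.mul_sum]
    exact congrArg₂ (· + ·) (Finset.sum_congr rfl fun _ _ => by ring)
      (Finset.sum_congr rfl fun _ _ => by ring)

theorem cv_add (X : QO D) (v w : Derivation ℂ (RQ G s X) (RQ G s X)) :
    cv xd G s X (v + w) = cv xd G s X v + cv xd G s X w := by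
  funext k
  rcases k with _ | k
  · exact c0_of xd X _ fun z => by
      rw [Derivation.add_apply, c0_eq xd X v, c0_eq xd X w, ← add_mul]; rfl
  · rfl

theorem cv_smul (X : QO D) (a : RQ G s X) (v : Derivation ℂ (RQ G s X) (RQ G s X)) :
    cv xd G s X (a • v) = a • cv xd G s X v := by
  funext k
  rcases k with _ | k
  · exact c0_of xd X _ fun z => by
      rw [Derivation.smul_apply, c0_eq xd X v, smul_eq_mul, ← mul_assoc]; rfl
  · rfl

theorem cv_lie (X : QO D) (v w : Derivation ℂ (RQ G s X) (RQ G s X)) :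
    cv xd G s X ⁅v, w⁆ = fun k => v (cv xd G s X w k) - w (cv xd G s X v k) := by
  funext k
  rcases k with _ | k
  · exact c0_of xd X _ fun z => by
      rw [Derivation.commutator_apply, c0_eq xd X v z, c0_eq xd X w z, Derivation.leibniz,
        Derivation.leibniz, c0_eq xd X v, c0_eq xd X w]
      simp only [cv, Option.elim, smul_eq_mul]
      ring
  · rfl

/-- The action of a vector field. -/
def act (G : Grp) (s : ℂ) (X : QO D) (v : Derivation ℂ (RQ G s X) (RQ G s X)) :
    TX G s X →ₗ[ℂ] TX G s X := nb v (cv xd G s X v)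

/-- The flat connection. -/
def cn (G : Grp) (s : ℂ) (X : QO D) : H710.FC ℂ (RQ G s X) (TX G s X) where
  act v := act xd G s X v
  act_add v := map_add _
  add_act v w p := by rw [act, cv_add]; exact nb_add _ _ _ _ p
  smul_act a v p := by rw [act, cv_smul]; exact nb_sm _ _ _ p
  leibniz v a p := nb_smul _ _ a p
  lie_act v w p := by rw [act, cv_lie]; exact nb_lie _ _ _ _ p

theorem cn_act (X : QO D) (v) (p : TX G s X) : (cn xd G s X).act v p = act xd G s X v p := rfl

theorem act_smul (X : QO D) (v) (a : RQ G s X) (p : TX G s X) :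
    act xd G s X v (a • p) = v a • p + a • act xd G s X v p := nb_smul _ _ a p

theorem act_ra0 (X : QO D) (v) (q : DV xd X.i) (p : TX G s X) :
    act xd G s X v (ra0 xd G s X q p) = ra0 xd G s X q (act xd G s X v p) :=
  nb_ra _ (co_cv xd X v) q p

theorem act_ev0 (X : QO D) (v) (q : DV xd X.i) :
    act xd G s X v (ev0 xd G s X q) = ∑ k, cv xd G s X v k • ev0 xd G s X (DO.D _ k * q) :=
  nb_ev _ (co_cv xd X v) q

theorem act_mon (X : QO D) (v) (α : Option (Fin 3) →₀ ℕ) : act xd G s X v (monomial α 1) =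
    ∑ k, cv xd G s X v k • monomial (α + Finsupp.single k 1) 1 := nb_mon _ _ α

/-! ### The transition maps -/

variable (K : GK G) {X Y Z : QO D}

/-- The homomorphism of an arrow. -/
abbrev qf (u : Ar G s X Y) : RQ G s X →ₐ[ℂ] RQ G s Y := (QS D G s).f u

theorem qf_x (u : Ar G s X Y) (z : D.C X.i) :
    qf u (qx G s X z) = qx G s Y (D.κ (QM.α u) z) := QM.hx u z

/-- The matrix of the inverse gauge transformation. -/
def ga (u : Ar G s X Y) : Matrix (Fin 3) (Fin 3) (RQ G s Y) := (adm G (qh u))ᵀ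

include K in
theorem qf_Y (u : Ar G s X Y) (b : Fin 3) :
    qf u (qY G s X b) = qx G s Y (D.c (QM.α u)) * ∑ a, ga u b a * qY G s Y a := by
  have h : G.ht (qx G s Y (D.c (QM.α u)) • qY G s Y) * qh u = qh u * G.ht (qf u ∘ qY G s X) := by
    rw [ht_smul, Matrix.smul_mul]; exact (QM.hY u).symm
  have h2 := congrArg (fun w => (ga u *ᵥ w) b) (K.eq_adm (qpt u) h)
  simp only [ga, mulVec_mulVec, K.adm_orth (qpt u), one_mulVec, mulVec_smul] at h2
  exact h2.symm

/-- The unit `c`. -/
def cu {i j : I} (α : i ⟶ j) : (D.C j)ˣ := (D.c_unit α).unit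

theorem cu_val {i j : I} (α : i ⟶ j) : ((cu α : (D.C j)ˣ) : D.C j) = D.c α := rfl

theorem lg_cu {i j : I} (α : i ⟶ j) : DW.lg (xd.pd j) (cu α) = xd.vfd.lc α := rfl

/-- The change of coordinates of an arrow of the index category. -/
def tα (s : ℂ) {i j : I} (α : i ⟶ j) : DW.Tr (Fin 3) (xd.pd i) (xd.pd j) where
  κ := D.κ α
  c := cu α
  g := 1
  l := s • xd.vfd.lr α
  hκ := xd.pd_κ α
  og := by rw [transpose_one, Matrix.one_mul]
  pg a b := by
    rw [Matrix.one_apply]
    split_ifs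
    exacts [Derivation.map_one_eq_zero _, map_zero _]

/-- The change of coordinates of an arrow. -/
def tr (u : Ar G s X Y) : DW.Tr (Fin 3) (pdX xd G s X) (pdX xd G s Y) where
  κ := Algebra.TensorProduct.map (qf u) (D.κ (QM.α u))
  c := Units.map (bR G s Y).toMonoidHom (cu (QM.α u))
  g := (ga u).map (bL G s Y)
  l := bR G s Y (s • xd.vfd.lr (QM.α u))
  hκ z := by
    induction z using TensorProduct.induction_on with
    | zero => simp
    | add x y hx hy => simp only [map_add, hx, hy, mul_add]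
    | tmul a z =>
      rw [Algebra.TensorProduct.map_tmul, pdX_tmul, pdX_tmul, Algebra.TensorProduct.map_tmul,
        xd.pd_κ]
      exact ((Algebra.TensorProduct.tmul_mul_tmul _ _ _ _).trans (by rw [one_mul]; rfl)).symm
  og := by
    rw [← transpose_map, ← map_mul', ga, transpose_transpose, K.adm_orth (qpt u), map_one']
  pg a b := pdX_L xd Y _

theorem tr_L (u : Ar G s X Y) (a : RQ G s X) :
    (tr xd K u).κ (bL G s X a) = bL G s Y (qf u a) :=
  (Algebra.TensorProduct.map_tmul _ _ a 1).trans (by rw [map_one]; rfl)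

theorem tr_R (u : Ar G s X Y) (z : D.C X.i) :
    (tr xd K u).κ (bR G s X z) = bR G s Y (D.κ (QM.α u) z) :=
  (Algebra.TensorProduct.map_tmul _ _ 1 z).trans (by rw [map_one]; rfl)

theorem tr_c (u : Ar G s X Y) : ((tr xd K u).c : BX G s Y) = bR G s Y (D.c (QM.α u)) := rfl

theorem tr_ci (u : Ar G s X Y) :
    (((tr xd K u).c⁻¹ : (BX G s Y)ˣ) : BX G s Y) = bR G s Y ((cu (QM.α u))⁻¹ : (D.C Y.i)ˣ) := rfl

theorem tr_g (u : Ar G s X Y) (a b : Fin 3) : (tr xd K u).g a b = bL G s Y (ga u a b) := rfl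

theorem tr_l (u : Ar G s X Y) : (tr xd K u).l = bR G s Y (s • xd.vfd.lr (QM.α u)) := rfl

theorem tr_lg (u : Ar G s X Y) :
    DW.lg (pdX xd G s Y) (tr xd K u).c = bR G s Y (xd.vfd.lc (QM.α u)) :=
  (map_mul (bR G s Y) _ _).symm

theorem mX_tr (u : Ar G s X Y) (b : BX G s X) :
    mX G s Y ((tr xd K u).κ b) = qf u (mX G s X b) := by
  induction b using TensorProduct.induction_on with
  | zero => simp
  | add x y hx hy => simp only [map_add, hx, hy]
  | tmul a z =>
    rw [mX_tmul, map_mul, qf_x]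
    exact (congrArg _ (Algebra.TensorProduct.map_tmul _ _ a z)).trans (mX_tmul _ _ _)

theorem cp_tr (u : Ar G s X Y) : Cp (pX G s X) (pX G s Y) (qf u) (DW.map (tr xd K u)) :=
  Cp.of_gen (fun z => ⟨C ((tr xd K u).κ z), DW.map_cf _ z, by rw [pX_C, pX_C, mX_tr]⟩)
    fun b => ⟨C ((tr xd K u).c : BX G s Y) * ∑ a, C ((tr xd K u).g b a) * MvPolynomial.X a,
      (DW.map_y _ b).trans (by simp only [DW.lc, map_mul, map_sum, DW.of_C, DW.of_X]), by
        simp only [map_mul, map_sum, pX_C, pX_X, tr_c, tr_g, mX_L, mX_R, qf_Y K]⟩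

/-- The transition map. -/
def t (u : Ar G s X Y) : TX G s X →ₗ[ℂ] TX G s Y :=
  tt (wd_cm _) (pX G s Y) (qf u) (DW.map (tr xd K u))

/-- The image of an operator of the chart. -/
def gu (u : Ar G s X Y) : DV xd X.i →ₐ[ℂ] DWX xd G s Y := (DW.map (tr xd K u)).comp (inc xd G s X)

theorem t_smul (u : Ar G s X Y) (a : RQ G s X) (p : TX G s X) :
    t xd K u (a • p) = qf u a • t xd K u p := tt_smul _ _ _ _ a p

theorem t_raX (u : Ar G s X Y) (q : DWX xd G s X) (p : TX G s X) :
    t xd K u (raX xd G s X q p) = raX xd G s Y (DW.map (tr xd K u) q) (t xd K u p) :=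
  tt_ra _ _ (cp_tr xd K u) q p

theorem t_ra0 (u : Ar G s X Y) (q : DV xd X.i) (p : TX G s X) :
    t xd K u (ra0 xd G s X q p) = raX xd G s Y (gu xd K u q) (t xd K u p) := by
  rw [← raX_inc, t_raX]; rfl

theorem t_evX (u : Ar G s X Y) (q : DWX xd G s X) :
    t xd K u (evX xd G s X q) = evX xd G s Y (DW.map (tr xd K u) q) := tt_ev _ _ (cp_tr xd K u) q

theorem t_ev0 (u : Ar G s X Y) (q : DV xd X.i) :
    t xd K u (ev0 xd G s X q) = evX xd G s Y (gu xd K u q) := by
  rw [← evX_inc, t_evX]; rfl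

theorem t_unit (u : Ar G s X Y) : t xd K u 1 = 1 := tt_one _

theorem lr_id (i : I) : xd.vfd.lr (𝟙 i) = 0 := xd.vfd.lr_one _ (D.r_id i)

include K in
theorem ga_of (u : Ar G s X Y) (h : QM.h u = 1) : ga u = 1 := by
  rw [ga, show qh u = 1 from h, K.adm_one, transpose_one]

theorem map_tr_id (X : QO D) : DW.map (tr xd K (idA G s X)) = AlgHom.id ℂ _ :=
  DW.map_eq_id _ (fun z => by
      induction z using TensorProduct.induction_on with
      | zero => simp
      | add x y hx hy => simp only [map_add, hx, hy]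
      | tmul a z =>
        exact (Algebra.TensorProduct.map_tmul _ _ a z).trans (congrArg _ (D.κ_id _ z)))
    (Units.ext ((congrArg (bR G s X) (D.c_id _)).trans (map_one _)))
    ((congrArg (fun m => m.map (bL G s X)) (ga_of K _ rfl)).trans (map_one' _))
    ((tr_l xd K _).trans (by rw [id_α, lr_id, smul_zero, map_zero]))

theorem t_id (X : QO D) (p : TX G s X) : t xd K (idA G s X) p = p :=
  (tt_map _ _ _ _ (fun k => by rw [map_tr_id]; rfl) p).trans (map_id p)

include K in
theorem ga_comp (u : Ar G s X Y) (v : Ar G s Y Z) : ga (u ≫ v) = (ga u).map (qf v) * ga v := by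
  have e : qh (u ≫ v) = qh v * (qh u).map (qf v) := rfl
  rw [ga, e, K.adm_mul (qpt v) ((qpt u).map _), transpose_mul, ← adm_map]
  rfl

theorem map_tr_comp (u : Ar G s X Y) (v : Ar G s Y Z) :
    (DW.map (tr xd K v)).comp (DW.map (tr xd K u)) = DW.map (tr xd K (u ≫ v)) :=
  DW.map_map _ _ _ (fun z => by
      induction z using TensorProduct.induction_on with
      | zero => simp
      | add x y hx hy => simp only [map_add, hx, hy]
      | tmul a z =>
        exact (Algebra.TensorProduct.map_tmul _ _ a z).trans (congrArg _ (D.κ_comp _ _ z)))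
    (by rw [tr_c, tr_c, tr_c, tr_R, ← map_mul, comp_α, D.c_comp])
    (Matrix.ext fun a b => by
      simp only [tr_g, ga_comp K, Matrix.mul_apply, map_sum, map_mul, map_apply, tr_L])
    (by rw [tr_l, tr_l, tr_l, tr_c, tr_R, ← map_mul, ← map_add, comp_α, VF.lr_comp, smul_add,
      map_smul (D.κ _), mul_smul_comm])

theorem t_comp (u : Ar G s X Y) (v : Ar G s Y Z) (p : TX G s X) :
    t xd K (u ≫ v) p = t xd K v (t xd K u p) := by
  rw [t, ← map_tr_comp]
  exact (tt_tt _ _ _ _ (cp_tr xd K v) p).symm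

/-- For `h = 1` the operators of the chart are transformed by the index arrow. -/
theorem gu_of (u : Ar G s X Y) (h : QM.h u = 1) (q : DV xd X.i) :
    gu xd K u q = inc xd G s Y (DW.map (tα xd s (QM.α u)) q) := by
  let w : DW.Tr (Fin 3) (xd.pd X.i) (pdX xd G s Y) :=
    ⟨(bR G s Y).comp (D.κ (QM.α u)), (tr xd K u).c, 1, (tr xd K u).l,
      fun z => (congrArg (bR G s Y) (xd.pd_κ _ z)).trans (map_mul _ _ _), (incT xd G s Y).og,
      (incT xd G s Y).pg⟩
  have e1 : gu xd K u = DW.map w := DW.map_map _ _ w (fun z => (tr_R xd K u z).symm)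
    (by simp [w, incT])
    (by
      change (1 : Matrix _ _ _) = (1 : Matrix _ _ _).map _ * (ga u).map _
      rw [ga_of K u h, map_one', map_one', Matrix.one_mul])
    (by simp [w, incT])
  have e2 : (inc xd G s Y).comp (DW.map (tα xd s (QM.α u))) = DW.map w :=
    DW.map_map _ _ w (fun z => rfl) (mul_one _).symm
    (by
      change (1 : Matrix _ _ _) = (1 : Matrix _ _ _).map _ * 1
      rw [map_one', Matrix.one_mul])
    ((add_zero _).trans (one_mul _)).symm
  rw [e1, ← e2]
  rfl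

theorem t_ra0_of (u : Ar G s X Y) (h : QM.h u = 1) (q : DV xd X.i) (p : TX G s X) :
    t xd K u (ra0 xd G s X q p) = ra0 xd G s Y (DW.map (tα xd s (QM.α u)) q) (t xd K u p) := by
  rw [t_ra0, gu_of xd K u h, raX_inc]

/-- The rotation fields. -/
def mu {B : Type} [CommRing B] [Algebra ℂ B] (κ : ℂ) (pd : Derivation ℂ B B) (a : Fin 3) :
    DW (Fin 3) pd := ∑ b, ∑ e, (κ * eps a b e) • (DW.y pd e * DW.d pd b)

/-- The operators of the Lie algebra. -/
def ll (s : ℂ) (X : QO D) (a : Fin 3) : TX G s X →ₗ[RQ G s X] TX G s X :=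
  - ra0 xd G s X (mu K.κ (xd.pd X.i) a)

theorem ll_apply (X : QO D) (a : Fin 3) (p : TX G s X) :
    ll xd K s X a p = - ra0 xd G s X (mu K.κ (xd.pd X.i) a) p := rfl

/-- The basis. -/
def bs (G : Grp) (s : ℂ) (X : QO D) : Module.Basis (Fin 4 →₀ ℕ) (RQ G s X) (TX G s X) :=
  (basisMonomials _ _).reindex (Finsupp.equivCongrLeft (finSuccEquiv 3).symm)

/-- The exponent. -/
def ex (m : Fin 4 →₀ ℕ) : Option (Fin 3) →₀ ℕ := Finsupp.equivMapDomain (finSuccEquiv 3) m

theorem bs_apply (X : QO D) (m : Fin 4 →₀ ℕ) : bs G s X m = monomial (ex m) 1 :=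
  (Module.Basis.reindex_apply _ _ _).trans rfl

end

end Vale.Agent.P286EX.Tr
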