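import Vale.Agent.P286EI.Wey

/-!
Transfer modules: symbols of differential operators along a homomorphism.
-/

set_option autoImplicit false
set_option linter.all false

namespace Vale.Agent.P286EX.Tr

open MvPolynomial Vale.Agent.P286EI

noncomputable section

variable {κ R A R' A' : Type} [CommRing R] [Algebra ℂ R] [CommRing A] [Algebra ℂ A]
  [CommRing R'] [Algebra ℂ R'] [CommRing A'] [Algebra ℂ A']
  {δ : κ → Derivation ℂ R R} {δ' : κ → Derivation ℂ R' R'}

/-- The monomials in the vector fields. -/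
def pm (δ : κ → Derivation ℂ R R) (α : κ →₀ ℕ) : DO δ := DO.pw δ (monomial α 1)

theorem pm_zero : pm δ 0 = 1 := map_one (DO.pw δ)

theorem pm_add (α : κ →₀ ℕ) (k : κ) : pm δ (α + Finsupp.single k 1) = pm δ α * DO.D δ k := by
  rw [pm, pm, ← DO.pw_X, ← map_mul, X, monomial_mul, mul_one]

theorem D_pm (α : κ →₀ ℕ) (k : κ) : DO.D δ k * pm δ α = pm δ α * DO.D δ k := by
  rw [pm, ← DO.pw_X, ← map_mul, ← map_mul, mul_comm]

theorem fs_ind {P : (κ →₀ ℕ) → Prop} (h0 : P 0) (h1 : ∀ α k, P α → P (α + Finsupp.single k 1))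
    (α : κ →₀ ℕ) : P α := by
  have e : ∀ k n f, P f → P (f + Finsupp.single k n) := fun k n f hf => by
    induction n with
    | zero => rw [Finsupp.single_zero, add_zero]; exact hf
    | succ n ih => rw [Finsupp.single_add, ← add_assoc]; exact h1 _ _ ih
  induction α using Finsupp.induction₂ with
  | zero => exact h0
  | add_single k n f _ _ hf => exact e k n f hf

theorem mon_ind {P : MvPolynomial κ A → Prop} (h0 : ∀ α, P (monomial α 1))
    (h1 : ∀ (a : A) p, P p → P (a • p)) (h2 : ∀ p q, P p → P q → P (p + q))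
    (p : MvPolynomial κ A) : P p := by
  induction p using MvPolynomial.induction_on' with
  | monomial α a =>
    have := h1 a _ (h0 α)
    rwa [smul_monomial, smul_eq_mul, mul_one] at this
  | add p q hp hq => exact h2 _ _ hp hq

variable (h : DO.Cm δ) (ψ : R →ₐ[ℂ] A)

/-- The symbol along `ψ`. -/
def ev : DO δ →ₗ[ℂ] MvPolynomial κ A :=
  (mapAlgHom ψ).toLinearMap.comp ((DO.pbw h).symm.toLinearMap.restrictScalars ℂ)

theorem ev_no (p : MvPolynomial κ R) : ev h ψ (DO.no δ p) = map (ψ : R →+* A) p :=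
  congrArg (map (ψ : R →+* A)) ((DO.pbw h).symm_apply_apply p)

theorem ev_of_mul (f : R) (q : DO δ) : ev h ψ (DO.of δ f * q) = ψ f • ev h ψ q := by
  obtain ⟨p, rfl⟩ := DO.no_surj q
  rw [← DO.no_C_mul, ev_no, ev_no, map_mul, map_C, smul_eq_C_mul]
  rfl

theorem ev_mul_D (q : DO δ) (k : κ) : ev h ψ (q * DO.D δ k) = ev h ψ q * X k := by
  obtain ⟨p, rfl⟩ := DO.no_surj q
  rw [← DO.no_mul_X, ev_no, ev_no, map_mul, map_X]

theorem ev_one : ev h ψ 1 = 1 := by rw [← DO.no_one, ev_no, map_one]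

theorem ev_of (f : R) : ev h ψ (DO.of δ f) = C (ψ f) := by
  rw [← mul_one (DO.of δ f), ev_of_mul, ev_one, smul_eq_C_mul, mul_one]

theorem no_pm (α : κ →₀ ℕ) (a : R) : DO.no δ (monomial α a) = DO.of δ a * pm δ α := DO.no_mon α a

theorem ev_pm (α : κ →₀ ℕ) : ev h ψ (pm δ α) = monomial α 1 := by
  rw [← one_mul (pm δ α), ← map_one (DO.of δ), ← no_pm, ev_no, map_monomial, map_one]

theorem pm_ind {P : DO δ → Prop} (h0 : ∀ f α, P (DO.of δ f * pm δ α))
    (h2 : ∀ p q, P p → P q → P (p + q)) (q : DO δ) : P q := by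
  obtain ⟨p, rfl⟩ := DO.no_surj q
  induction p using MvPolynomial.induction_on' with
  | monomial α a => rw [no_pm]; exact h0 a α
  | add p q hp hq => rw [map_add]; exact h2 _ _ hp hq

/-- The right action. -/
def ra : DO δ →ₗ[ℂ] MvPolynomial κ A →ₗ[A] MvPolynomial κ A where
  toFun q := (basisMonomials κ A).constr ℕ fun α => ev h ψ (pm δ α * q)
  map_add' p q := (basisMonomials κ A).ext fun α => by
    simp only [LinearMap.add_apply, Module.Basis.constr_basis, mul_add, map_add]
  map_smul' c q := (basisMonomials κ A).ext fun α => by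
    simp only [LinearMap.smul_apply, Module.Basis.constr_basis, mul_smul_comm, map_smul,
      RingHom.id_apply]

theorem ra_mon (q : DO δ) (α : κ →₀ ℕ) : ra h ψ q (monomial α 1) = ev h ψ (pm δ α * q) :=
  (basisMonomials κ A).constr_basis ℕ _ α

theorem ra_ev (q p : DO δ) : ra h ψ q (ev h ψ p) = ev h ψ (p * q) := by
  induction p using pm_ind with
  | h0 f α => rw [ev_of_mul, map_smul, ev_pm, ra_mon, mul_assoc, ev_of_mul]
  | h2 p p' hp hp' => rw [map_add, map_add, hp, hp', add_mul, map_add]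

theorem ra_one' (q : DO δ) : ra h ψ q 1 = ev h ψ q := by rw [← ev_one h ψ, ra_ev, one_mul]

theorem lin_ext {M : Type} [AddCommGroup M] [Module A M] {u v : MvPolynomial κ A →ₗ[A] M}
    (e : ∀ α, u (monomial α 1) = v (monomial α 1)) : u = v := (basisMonomials κ A).ext e

theorem ra_one (p : MvPolynomial κ A) : ra h ψ 1 p = p :=
  LinearMap.congr_fun (lin_ext (u := ra h ψ 1) (v := LinearMap.id) fun α => by
    rw [ra_mon, mul_one, ev_pm]; rfl) p

theorem ra_mul (a b : DO δ) (p : MvPolynomial κ A) : ra h ψ (a * b) p = ra h ψ b (ra h ψ a p) :=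
  LinearMap.congr_fun (lin_ext (u := ra h ψ (a * b)) (v := ra h ψ b ∘ₗ ra h ψ a) fun α => by
    rw [LinearMap.comp_apply, ra_mon, ra_mon, ra_ev, mul_assoc]) p

theorem ra_D (k : κ) (p : MvPolynomial κ A) : ra h ψ (DO.D δ k) p = p * X k :=
  LinearMap.congr_fun (lin_ext (u := ra h ψ (DO.D δ k)) (v := LinearMap.mulRight A (X k)) fun α => by
    rw [ra_mon, ev_mul_D, ev_pm]; rfl) p

/-- A function killed by all the vector fields acts as a scalar. -/
theorem ra_const {f : R} (hf : ∀ k, δ k f = 0) (p : MvPolynomial κ A) :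
    ra h ψ (DO.of δ f) p = ψ f • p := by
  have e : ∀ q : DO δ, q * DO.of δ f = DO.of δ f * q := fun q => by
    induction q using DO.ind with
    | h0 a => exact DO.of_of _ _
    | h1 k => rw [DO.D_of, hf, map_zero, add_zero]
    | add x y hx hy => rw [add_mul, mul_add, hx, hy]
    | mul x y hx hy => rw [mul_assoc, hy, ← mul_assoc, hx, mul_assoc]
  exact LinearMap.congr_fun (lin_ext (u := ra h ψ (DO.of δ f)) (v := ψ f • LinearMap.id) fun α => by
    rw [ra_mon, e, ev_of_mul, ev_pm]; rfl) p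

/-! ### Transition maps -/

variable (h' : DO.Cm δ') (ψ' : R' →ₐ[ℂ] A') (φ : A →ₐ[ℂ] A') (m : DO δ →ₐ[ℂ] DO δ')

/-- The transition map. -/
def tt : MvPolynomial κ A →ₗ[ℂ] MvPolynomial κ A' :=
  (Finsupp.lsum ℂ fun α => (LinearMap.toSpanSingleton A' _ (ev h' ψ' (m (pm δ α)))).restrictScalars ℂ
    ∘ₗ φ.toLinearMap) ∘ₗ (basisMonomials κ A).repr.toLinearMap.restrictScalars ℂ

theorem tt_mon (α : κ →₀ ℕ) (a : A) :
    tt h' ψ' φ m (monomial α a) = φ a • ev h' ψ' (m (pm δ α)) := by
  have e : (basisMonomials κ A).repr (monomial α a) = Finsupp.single α a := by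
    rw [← mul_one a, ← smul_eq_mul, ← smul_monomial, map_smul, smul_eq_mul, mul_one]
    exact (congrArg (a • ·) ((basisMonomials κ A).repr_self α)).trans (by simp)
  exact (congrArg (Finsupp.lsum ℂ _) e).trans (Finsupp.lsum_single ℂ _ α a)

theorem tt_smul (a : A) (p : MvPolynomial κ A) :
    tt h' ψ' φ m (a • p) = φ a • tt h' ψ' φ m p := by
  induction p using MvPolynomial.induction_on' with
  | monomial α b => rw [smul_monomial, tt_mon, tt_mon, smul_eq_mul, map_mul, mul_smul]
  | add p q hp hq => rw [smul_add, map_add, map_add, hp, hq, smul_add]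

/-- Compatibility of the functions. -/
def Cp (ψ : R →ₐ[ℂ] A) (ψ' : R' →ₐ[ℂ] A') (φ : A →ₐ[ℂ] A') (m : DO δ →ₐ[ℂ] DO δ') : Prop :=
  ∀ f, ∃ f', m (DO.of δ f) = DO.of δ' f' ∧ ψ' f' = φ (ψ f)

variable {ψ ψ' φ m}

theorem tt_ev (H : Cp ψ ψ' φ m) (q : DO δ) : tt h' ψ' φ m (ev h ψ q) = ev h' ψ' (m q) := by
  induction q using pm_ind with
  | h0 f α =>
    obtain ⟨f', e1, e2⟩ := H f
    rw [ev_of_mul, tt_smul, ev_pm, tt_mon, map_one, one_smul, map_mul, e1, ev_of_mul, e2]
  | h2 p p' hp hp' => simp only [map_add, hp, hp']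

theorem tt_ra (H : Cp ψ ψ' φ m) (q : DO δ) (p : MvPolynomial κ A) :
    tt h' ψ' φ m (ra h ψ q p) = ra h' ψ' (m q) (tt h' ψ' φ m p) := by
  induction p using mon_ind with
  | h0 α => rw [ra_mon, tt_ev h h' H, ← ev_pm h ψ, tt_ev h h' H, ra_ev, map_mul]
  | h1 a p hp => rw [map_smul, tt_smul, tt_smul, hp, map_smul]
  | h2 p p' hp hp' => simp only [map_add, hp, hp']

theorem tt_one : tt h' ψ' φ m 1 = 1 := by
  rw [show (1 : MvPolynomial κ A) = monomial 0 1 from rfl, tt_mon, pm_zero, map_one, map_one,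
    one_smul, ev_one]

theorem Cp.of_gen {ι B : Type} [CommRing B] [Algebra ℂ B]
    {δ : κ → Derivation ℂ (MvPolynomial ι B) (MvPolynomial ι B)} {ψ : MvPolynomial ι B →ₐ[ℂ] A}
    {m : DO δ →ₐ[ℂ] DO δ'}
    (h1 : ∀ z, ∃ f', m (DO.of δ (C z)) = DO.of δ' f' ∧ ψ' f' = φ (ψ (C z)))
    (h2 : ∀ a, ∃ f', m (DO.of δ (X a)) = DO.of δ' f' ∧ ψ' f' = φ (ψ (X a))) : Cp ψ ψ' φ m :=
  fun f => by
    induction f using MvPolynomial.induction_on with
    | C z => exact h1 z
    | add p q hp hq =>
      obtain ⟨f, e1, e2⟩ := hp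
      obtain ⟨g, e3, e4⟩ := hq
      exact ⟨f + g, by simp only [map_add, e1, e3], by simp only [map_add, e2, e4]⟩
    | mul_X p a hp =>
      obtain ⟨f, e1, e2⟩ := hp
      obtain ⟨g, e3, e4⟩ := h2 a
      exact ⟨f * g, by simp only [map_mul, e1, e3], by simp only [map_mul, e2, e4]⟩

/-! ### The connection -/

variable [Fintype κ]

/-- The linear form `∑ c_k ξ_k`. -/
def lf (c : κ → A) : MvPolynomial κ A := ∑ k, c k • X k

/-- The action of a vector field with the components `c`. -/
def nb (v : Derivation ℂ A A) (c : κ → A) : MvPolynomial κ A →ₗ[ℂ] MvPolynomial κ A :=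
  (dx v 0).toLinearMap + LinearMap.mulRight ℂ (lf c)

theorem nb_apply (v : Derivation ℂ A A) (c : κ → A) (p : MvPolynomial κ A) :
    nb v c p = dx v 0 p + p * lf c := rfl

omit [Fintype κ] in
theorem dx_smul (v : Derivation ℂ A A) (a : A) (p : MvPolynomial κ A) :
    dx v 0 (a • p) = v a • p + a • dx v 0 p := by
  rw [smul_eq_C_mul, Derivation.leibniz, dx_C, smul_eq_C_mul, smul_eq_C_mul, smul_eq_mul, smul_eq_mul]
  ring

omit [Fintype κ] in
theorem dx_mul_X (v : Derivation ℂ A A) (p : MvPolynomial κ A) (k : κ) :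
    dx v 0 (p * X k) = dx v 0 p * X k := by
  rw [Derivation.leibniz, dx_X, Pi.zero_apply, smul_zero, zero_add, smul_eq_mul, mul_comm]

omit [Fintype κ] in
theorem dx_mon (v : Derivation ℂ A A) (α : κ →₀ ℕ) : dx v 0 (monomial α (1 : A)) = 0 := by
  induction α using fs_ind with
  | h0 => exact Derivation.map_one_eq_zero _
  | h1 α k ih =>
    rw [show monomial (α + Finsupp.single k 1) (1 : A) = monomial α 1 * X k by
      rw [X, monomial_mul, mul_one], dx_mul_X, ih, zero_mul]

theorem nb_smul (v : Derivation ℂ A A) (c : κ → A) (a : A) (p : MvPolynomial κ A) :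
    nb v c (a • p) = v a • p + a • nb v c p := by
  rw [nb_apply, nb_apply, dx_smul, smul_add, smul_mul_assoc, add_assoc]

theorem nb_mon (v : Derivation ℂ A A) (c : κ → A) (α : κ →₀ ℕ) :
    nb v c (monomial α 1) = ∑ k, c k • monomial (α + Finsupp.single k 1) 1 := by
  rw [nb_apply, dx_mon, zero_add, lf, Finset.mul_sum]
  exact Finset.sum_congr rfl fun k _ => by rw [mul_smul_comm, X, monomial_mul, mul_one]

theorem nb_one (v : Derivation ℂ A A) (c : κ → A) : nb v c 1 = lf c := by
  rw [nb_apply, Derivation.map_one_eq_zero, zero_add, one_mul]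

theorem nb_mul_X (v : Derivation ℂ A A) (c : κ → A) (p : MvPolynomial κ A) (k : κ) :
    nb v c (p * X k) = nb v c p * X k := by
  rw [nb_apply, nb_apply, dx_mul_X]
  ring

theorem dx_lf (v : Derivation ℂ A A) (c : κ → A) : dx v 0 (lf c) = lf fun k => v (c k) := by
  simp only [lf, map_sum, dx_smul, dx_X, Pi.zero_apply, smul_zero, add_zero]

theorem lf_add (c c' : κ → A) : lf (c + c') = lf c + lf c' := by
  simp only [lf, Pi.add_apply, add_smul, Finset.sum_add_distrib]

theorem lf_smul (a : A) (c : κ → A) : lf (a • c) = a • lf c := by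
  simp only [lf, Pi.smul_apply, smul_eq_mul, mul_smul, Finset.smul_sum]

theorem nb_add (v w : Derivation ℂ A A) (c c' : κ → A) (p : MvPolynomial κ A) :
    nb (v + w) (c + c') p = nb v c p + nb w c' p := by
  induction p using mon_ind with
  | h0 α => simp only [nb_mon, Pi.add_apply, add_smul, Finset.sum_add_distrib]
  | h1 a p hp => simp only [nb_smul, hp, Derivation.add_apply, add_smul, smul_add]; abel
  | h2 p p' hp hp' => simp only [map_add, hp, hp']; abel

theorem nb_sm (a : A) (v : Derivation ℂ A A) (c : κ → A) (p : MvPolynomial κ A) :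
    nb (a • v) (a • c) p = a • nb v c p := by
  induction p using mon_ind with
  | h0 α => simp only [nb_mon, Pi.smul_apply, smul_eq_mul, mul_smul, Finset.smul_sum]
  | h1 b p hp =>
    simp only [nb_smul, hp, Derivation.smul_apply, smul_eq_mul, mul_smul, smul_add, smul_comm a b]
  | h2 p p' hp hp' => simp only [map_add, hp, hp', smul_add]

theorem nb_lie (v w : Derivation ℂ A A) (c c' : κ → A) (p : MvPolynomial κ A) :
    nb ⁅v, w⁆ (fun k => v (c' k) - w (c k)) p = nb v c (nb w c' p) - nb w c' (nb v c p) := by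
  induction p using mon_ind with
  | h0 α =>
    have e : lf (fun k => v (c' k) - w (c k)) = lf (fun k => v (c' k)) - lf fun k => w (c k) := by
      simp only [lf, sub_smul, Finset.sum_sub_distrib]
    simp only [nb_apply, dx_mon, zero_add, Derivation.leibniz, smul_zero, add_zero, dx_lf, e,
      smul_eq_mul, mul_zero]
    ring
  | h1 a p hp =>
    simp only [nb_smul, hp, map_add, Derivation.commutator_apply, sub_smul, smul_sub]
    abel
  | h2 p p' hp hp' => simp only [map_add, hp, hp']; abel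

/-- The components of the vector field along `ψ`. -/
def Co (δ : κ → Derivation ℂ R R) (ψ : R →ₐ[ℂ] A) (v : Derivation ℂ A A) (c : κ → A) : Prop :=
  ∀ f, v (ψ f) = ∑ k, c k * ψ (δ k f)

theorem nb_ev {v : Derivation ℂ A A} {c : κ → A} (H : Co δ ψ v c) (q : DO δ) :
    nb v c (ev h ψ q) = ∑ k, c k • ev h ψ (DO.D δ k * q) := by
  induction q using DO.ind_left with
  | h0 f =>
    simp only [DO.D_of, map_add, ev_mul_D, ev_of, smul_add, Finset.sum_add_distrib, nb_apply, dx_C,
      H f, map_sum, map_mul, lf, Finset.mul_sum, mul_smul_comm, smul_eq_C_mul]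
    rw [add_comm]
    exact congrArg (· + _) (Finset.sum_congr rfl fun k _ => mul_left_comm _ _ _)
  | add x y hx hy => simp only [map_add, hx, hy, mul_add, smul_add, Finset.sum_add_distrib]
  | h1 x k hx =>
    simp only [ev_mul_D, nb_mul_X, hx, ← mul_assoc, Finset.sum_mul, smul_mul_assoc]

theorem nb_ra {v : Derivation ℂ A A} {c : κ → A} (H : Co δ ψ v c) (q : DO δ)
    (p : MvPolynomial κ A) : nb v c (ra h ψ q p) = ra h ψ q (nb v c p) := by
  induction p using mon_ind with
  | h0 α =>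
    rw [ra_mon, nb_ev h H, nb_mon, map_sum]
    exact Finset.sum_congr rfl fun k _ => by rw [map_smul, ra_mon, pm_add, ← D_pm, mul_assoc]
  | h1 a p hp => simp only [map_smul, nb_smul, hp, map_add]
  | h2 p p' hp hp' => simp only [map_add, hp, hp']

end

end Vale.Agent.P286EX.Tr
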