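import Vale.Agent.P286ER.IF
import Vale.Agent.P286.H211.Fred

/-!
# The weight of a one-parameter group on the determinant of the cohomology
-/

set_option linter.all false

namespace Vale.Agent.P286ER2

open Vale.Agent.P286 Vale.Agent.P286ER Module

noncomputable section

variable {F : Type} [Field F]

theorem fac {V : Type} [AddCommGroup V] [Module F V] (W : Submodule F V) [FiniteDimensional F W]
    (φ : End F V) (h : ∀ x, (φ - 1) x ∈ W) (h' : ∀ x ∈ W, φ x ∈ W) :
    ∃ (n : ℕ) (X : (Fin n → F) →ₗ[F] V) (Y : V →ₗ[F] (Fin n → F)), φ = 1 + X ∘ₗ Y ∧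
      (1 + LinearMap.toMatrix' (Y ∘ₗ X)).det = LinearMap.det (φ.restrict h') := by
  let b := (finBasis F W).equivFun
  refine ⟨_, W.subtype ∘ₗ b.symm.toLinearMap, b.toLinearMap ∘ₗ (φ - 1).codRestrict W h,
    LinearMap.ext fun x => by simp, ?_⟩
  rw [← LinearMap.det_conj (φ.restrict h') b, ← LinearMap.det_toMatrix',
    ← LinearMap.toMatrix'_one, ← map_add]
  refine congrArg (fun u => (LinearMap.toMatrix' u).det) (LinearMap.ext fun x => ?_)
  refine b.symm.injective (Subtype.ext ?_)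
  simp

theorem fin_range {I : Type} {φ : End F (I →₀ F)} (h : FinRank φ) :
    FiniteDimensional F (LinearMap.range φ) := by
  obtain ⟨s, hs⟩ := h
  haveI : FiniteDimensional F (Finsupp.supported F F (s : Set I)) :=
    (Finsupp.supportedEquivFinsupp (s : Set I)).symm.finiteDimensional
  refine Submodule.finiteDimensional_of_le (S₂ := Finsupp.supported F F (s : Set I)) ?_
  rintro _ ⟨x, rfl⟩
  exact (Finsupp.mem_supported' _ _).2 (hs x)

section

variable {W : Type} [AddCommGroup W] [Module F W] [FiniteDimensional F W]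

theorem det_idem {e : End F W} (h : e * e = e) (c : F) :
    LinearMap.det (1 + (c - 1) • e) = c ^ finrank F (LinearMap.range e) := by
  have h1 : ∀ x ∈ LinearMap.range e, (1 + (c - 1) • e) x ∈ LinearMap.range e := fun x hx =>
    add_mem hx (Submodule.smul_mem _ _ ⟨x, rfl⟩)
  have h2 : (1 + (c - 1) • e).restrict h1 = c • LinearMap.id := LinearMap.ext fun ⟨_, x, rfl⟩ =>
    Subtype.ext (by
      have := LinearMap.congr_fun h x
      simp only [End.mul_apply] at this
      simp [this, sub_smul])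
  have h3 : (LinearMap.range e).mapQ (LinearMap.range e) (1 + (c - 1) • e) h1 = LinearMap.id :=
    Submodule.linearMap_qext _ (LinearMap.ext fun x => (Submodule.Quotient.eq _).2 (by
      simpa using Submodule.smul_mem _ _ (LinearMap.mem_range_self e x)))
  rw [LinearMap.det_eq_det_mul_det _ _ h1, h2, h3, LinearMap.det_smul, LinearMap.det_id,
    LinearMap.det_id, mul_one, mul_one]

end

variable [CharZero F]

section

variable {R : Type} [Ring R] [Algebra F R]

/-- The projection to the eigenspace for the eigenvalue one. -/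
def ep (F : Type) [Field F] [Algebra F R] (H : R) : R := (2⁻¹ : F) • (H * H + H)

theorem ep_sq {H : R} (h : H * H * H = H) : ep F H * ep F H = ep F H := by
  have h3 : H * (H * H) = H := by rw [← mul_assoc, h]
  simp only [ep, mul_add, add_mul, smul_mul_assoc, mul_smul_comm, mul_assoc, h3]
  match_scalars <;> norm_num

theorem gm_eq {H : R} (h : H * H * H = H) (τ τ' : F) :
    gm τ τ' H = (1 + (τ - 1) • ep F H) * (1 + (τ' - 1) • ep F (-H)) := by
  have h3 : H * (H * H) = H := by rw [← mul_assoc, h]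
  simp only [gm, ep, mul_add, add_mul, smul_mul_assoc, mul_smul_comm, mul_assoc, h3, mul_neg,
    neg_mul, neg_neg, mul_one, one_mul]
  match_scalars <;> ring

theorem gm_inv {H : R} (h : H * H * H = H) {τ τ' : F} (e : τ * τ' = 1) :
    gm τ τ' H * gm τ' τ H = 1 := by
  have h3 : H * (H * H) = H := by rw [← mul_assoc, h]
  simp only [gm, mul_add, add_mul, smul_mul_assoc, mul_smul_comm, mul_assoc, h3, mul_one, one_mul]
  match_scalars
  · ring
  · ring
  · linear_combination e

end

section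

variable {W : Type} [AddCommGroup W] [Module F W]

theorem mem_ep {H : End F W} (h : H * H * H = H) (x : W) :
    x ∈ LinearMap.range (ep F H) ↔ H x = x := by
  constructor
  · rintro ⟨y, rfl⟩
    have := LinearMap.congr_fun h y
    simp only [End.mul_apply] at this
    simp [ep, this, add_comm]
  · refine fun e => ⟨x, ?_⟩
    simp only [ep, LinearMap.smul_apply, LinearMap.add_apply, End.mul_apply, e]
    module

theorem neg3 {H : End F W} (h : H * H * H = H) : -H * -H * -H = -H := by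
  rw [neg_mul_neg, mul_neg, h]

theorem map_ep {U H H' : End F W} (h : U * H = H' * U) (x : W) :
    U (ep F H x) = ep F H' (U x) := by
  have : ∀ y, U (H y) = H' (U y) := LinearMap.congr_fun h
  simp [ep, this]

theorem fd [FiniteDimensional F W] {U H H' : End F W} (h : H * H * H = H) (h' : H' * H' * H' = H') (u : U * H = H' * U)
    (a : ∀ x, H' x = x → ∃ y, U y = x) (b : ∃ x, x ≠ 0 ∧ U x = 0 ∧ H x = x)
    (c : ∀ x, U x = 0 → H x = -x → x = 0) : ∃ n : ℕ, 0 < n ∧ ∀ τ τ' : F, τ * τ' = 1 →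
      LinearMap.det (gm τ τ' H * gm τ' τ H') = τ ^ n := by
  have m : ∀ {G G' : End F W}, U * G = G' * U → ∀ x ∈ LinearMap.range (ep F G),
      U x ∈ LinearMap.range (ep F G') := by
    rintro G G' e _ ⟨x, rfl⟩
    exact ⟨U x, (map_ep e x).symm⟩
  have u' : U * -H = -H' * U := by rw [mul_neg, neg_mul, u]
  have k1 : finrank F (LinearMap.range (ep F H')) < finrank F (LinearMap.range (ep F H)) := by
    have s : LinearMap.range (U.restrict (m u)) = ⊤ := eq_top_iff.2 fun x _ => by
      obtain ⟨y, hy⟩ := a x.1 ((mem_ep h' _).1 x.2)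
      refine ⟨⟨ep F H y, y, rfl⟩, Subtype.ext ?_⟩
      show U (ep F H y) = x.1
      obtain ⟨z, hz⟩ := x.2
      rw [map_ep u, hy, ← hz]
      exact LinearMap.congr_fun (ep_sq (F := F) h') z
    have t := (U.restrict (m u)).finrank_range_add_finrank_ker
    rw [s, finrank_top] at t
    obtain ⟨x, x0, x1, x2⟩ := b
    have : LinearMap.ker (U.restrict (m u)) ≠ ⊥ := (Submodule.ne_bot_iff _).2
      ⟨⟨x, (mem_ep h _).2 x2⟩, Subtype.ext x1, fun e => x0 (congrArg Subtype.val e)⟩
    have := Submodule.finrank_eq_zero.not.2 this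
    omega
  have k2 : finrank F (LinearMap.range (ep F (-H))) ≤ finrank F (LinearMap.range (ep F (-H'))) :=
    LinearMap.finrank_le_finrank_of_injective (f := U.restrict (m u'))
      ((injective_iff_map_eq_zero _).2 fun x e => Subtype.ext (c x.1 (congrArg Subtype.val e)
        (neg_eq_iff_eq_neg.1 ((mem_ep (neg3 h) _).1 x.2))))
  obtain ⟨p, hp⟩ := Nat.exists_eq_add_of_lt k1
  obtain ⟨q, hq⟩ := Nat.exists_eq_add_of_le k2
  refine ⟨p + 1 + q, by omega, fun τ τ' e => ?_⟩
  rw [gm_eq h, gm_eq h', map_mul, map_mul, map_mul, det_idem (ep_sq h), det_idem (ep_sq h'),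
    det_idem (ep_sq (neg3 h)), det_idem (ep_sq (neg3 h')), hp, hq]
  calc _ = (τ * τ') ^ finrank F (LinearMap.range (ep F H')) *
      (τ * τ') ^ finrank F (LinearMap.range (ep F (-H))) * τ ^ (p + 1 + q) := by ring
    _ = _ := by rw [e, one_pow, one_pow, one_mul, one_mul]

theorem main {U H H' : End F W} [FiniteDimensional F (LinearMap.range (U - 1))]
    (h : H * H * H = H) (h' : H' * H' * H' = H') (u : U * H = H' * U)
    (a : ∀ x, H' x = x → ∃ y, U y = x) (b : ∃ x, x ≠ 0 ∧ U x = 0 ∧ H x = x)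
    (c : ∀ x, U x = 0 → H x = -x → x = 0) : ∃ n : ℕ, 0 < n ∧ ∃ (V : Submodule F W)
      (_ : FiniteDimensional F V), ∀ τ τ' : F, τ * τ' = 1 →
      ∃ s : ∀ x ∈ V, (gm τ τ' H * gm τ' τ H') x ∈ V, (∀ x, (gm τ τ' H * gm τ' τ H' - 1) x ∈ V) ∧
      LinearMap.det ((gm τ τ' H * gm τ' τ H').restrict s) = τ ^ n := by
  let V0 := LinearMap.range (U - 1)
  let V := V0 ⊔ V0.map H' ⊔ V0.map (H' * H')
  have w1 : ∀ x, (U - 1) x ∈ V := fun x =>
    Submodule.mem_sup_left (Submodule.mem_sup_left ⟨x, rfl⟩)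
  have s1 : ∀ x ∈ V, H' x ∈ V := by
    refine (show V ≤ V.comap H' from sup_le (sup_le (fun x hx => ?_) ?_) ?_)
    · exact Submodule.mem_sup_left (Submodule.mem_sup_right ⟨x, hx, rfl⟩)
    · rintro _ ⟨x, hx, rfl⟩
      exact Submodule.mem_sup_right ⟨x, hx, rfl⟩
    · rintro _ ⟨x, hx, rfl⟩
      exact Submodule.mem_sup_left (Submodule.mem_sup_right
        ⟨x, hx, (LinearMap.congr_fun h' x).symm⟩)
  have w2 : ∀ x, (H - H') x ∈ V := fun x => by
    have : H - H' = H' * (U - 1) - (U - 1) * H := by rw [mul_sub, sub_mul, u]; simp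
    rw [this]
    exact sub_mem (s1 _ (w1 x)) (w1 _)
  have s2 : ∀ x ∈ V, H x ∈ V := fun x hx => by simpa using add_mem (s1 x hx) (w2 x)
  have s3 : ∀ x ∈ V, U x ∈ V := fun x hx => by simpa using add_mem hx (w1 x)
  obtain ⟨n, n0, hn⟩ := fd (U := U.restrict s3) (H := H.restrict s2) (H' := H'.restrict s1)
    (LinearMap.ext fun x => Subtype.ext (LinearMap.congr_fun h x))
    (LinearMap.ext fun x => Subtype.ext (LinearMap.congr_fun h' x))
    (LinearMap.ext fun x => Subtype.ext (LinearMap.congr_fun u x))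
    (fun x e => by
      obtain ⟨y, hy⟩ := a x.1 (Subtype.ext_iff.1 e)
      exact ⟨⟨y, by simpa [← hy] using sub_mem x.2 (w1 y)⟩, Subtype.ext hy⟩)
    (by
      obtain ⟨x, x0, x1, x2⟩ := b
      exact ⟨⟨x, by simpa [x1] using w1 x⟩, fun e => x0 (Subtype.ext_iff.1 e), Subtype.ext x1,
        Subtype.ext x2⟩)
    fun x e e' => Subtype.ext (c x.1 (Subtype.ext_iff.1 e) (Subtype.ext_iff.1 e'))
  have g : ∀ (σ σ' : F) {G : End F W}, (∀ x ∈ V, G x ∈ V) → ∀ x ∈ V, gm σ σ' G x ∈ V :=
    fun σ σ' G s x hx => add_mem (add_mem hx (V.smul_mem _ (s x hx))) (V.smul_mem _ (s _ (s x hx)))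
  refine ⟨n, n0, V, inferInstance, fun τ τ' e => ⟨fun x hx => g _ _ s2 _ (g _ _ s1 x hx),
    fun x => ?_, (hn τ τ' e).symm ▸ rfl⟩⟩
  have e1 : ∀ y, gm τ τ' H y - gm τ τ' H' y = ((τ - τ') / 2) • (H - H') y +
      ((τ + τ') / 2 - 1) • ((H - H') (H y) + H' ((H - H') y)) := fun y => by
    simp only [gm, LinearMap.add_apply, LinearMap.smul_apply, LinearMap.sub_apply, End.mul_apply,
      End.one_apply, map_sub]
    module
  rw [← gm_inv h' e]
  show gm τ τ' H _ - gm τ τ' H' _ ∈ V
  rw [e1]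
  exact add_mem (V.smul_mem _ (w2 _)) (V.smul_mem _ (add_mem (w2 _) (s1 _ (w2 _))))

end

theorem weight : WEIGHT := by
  intro F I _ _ U H H' hU h h' u a b c
  haveI := fin_range hU
  obtain ⟨n, n0, V, _, hn⟩ := main (W := I →₀ F) h h' u a b c
  refine ⟨n, n0, fun τ τ' e => ?_⟩
  obtain ⟨s, s1, s2⟩ := hn τ τ' e
  obtain ⟨m, X, Y, e1, e2⟩ := fac (V := I →₀ F) V _ s1 s
  exact (congrArg fdet e1).trans ((fdet_one_add _ X Y).trans (e2.trans s2))

end

end Vale.Agent.P286ER2
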